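import Vale.Agent.P101.GlueD

namespace Vale.Agent.Results.P101.Drop

open Vale.Agent.P101

/-- No characters on the central sequence algebra gives unital homomorphisms of all prime dimension
drop algebras into it. -/
theorem result (A : Type) [CStarAlgebra A] [Nontrivial A] [TopologicalSpace.SeparableSpace A]
    (ω : Ultrafilter ℕ) (hω : (ω : Filter ℕ) ≤ Filter.cofinite)
    (h : IsEmpty (Central ω A →⋆ₐ[ℂ] ℂ)) (p q : ℕ) (hp : 0 < p) (hq : 0 < q) (hpq : p.Coprime q) :
    SubHom (DimDrop p q) (Central ω A) :=
  mainD ω hω h p q hp hq hpq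

end Vale.Agent.Results.P101.Drop
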