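import Vale.Agent.P101.Glue

namespace Vale.Agent.Results.P101.Main

open Vale.Agent.P101

/-- Kirchberg–Rørdam character question: no characters on the central sequence algebra implies
tensorial absorption of the Jiang–Su algebra. -/
theorem result (A : Type) [CStarAlgebra A] [Nontrivial A] [TopologicalSpace.SeparableSpace A]
    (ω : Ultrafilter ℕ) (hω : (ω : Filter ℕ) ≤ Filter.cofinite)
    (h : IsEmpty (Central ω A →⋆ₐ[ℂ] ℂ))
    (Z : Type) [CStarAlgebra Z] [TopologicalSpace.SeparableSpace Z] (hZ : DropLimit Z)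
    (hf : HalfFlip Z) (T : Type) [CStarAlgebra T] (ι : A →⋆ₐ[ℂ] T) (j : Z →⋆ₐ[ℂ] T)
    (hι : Function.Injective ι) (hc : ∀ a d, Commute (ι a) (j d))
    (hd : Dense (StarAlgebra.adjoin ℂ (Set.range ι ∪ Set.range j) : Set T)) :
    Nonempty (A ≃⋆ₐ[ℂ] T) :=
  main ω hω h hZ hf ι j hι hc hd

end Vale.Agent.Results.P101.Main
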